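import Vale.Agent.P123.Main

namespace Vale.Agent.Results.P123.A_full

universe u

/-- Crouzeix's conjecture: the least constant `C` such that
`‖P(A)‖ ≤ C * sup {|P(z)| : z ∈ W(A)}` for every nonzero complex Hilbert space `H`, every bounded
operator `A` on `H` and every complex polynomial `P` is `2`.  Mathlib's inner product is linear in
the second argument, so `inner ℂ x (A x)` is the number written `⟨Ax, x⟩` in the problem. -/
theorem result :
    IsLeast {C : ℝ | ∀ (H : Type u) [NormedAddCommGroup H] [InnerProductSpace ℂ H]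
      [CompleteSpace H] [Nontrivial H] (A : H →L[ℂ] H) (P : Polynomial ℂ),
      ‖Polynomial.aeval A P‖ ≤ C * sSup ((fun z : ℂ => ‖Polynomial.eval z P‖) ''
        {z : ℂ | ∃ x : H, ‖x‖ = 1 ∧ @inner ℂ H InnerProductSpace.toInner x (A x) = z})} 2 :=
  Vale.Agent.P123.crouzeix_isLeast

end Vale.Agent.Results.P123.A_full
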